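/-
Row 211 (S0326), BACKUP assembly of `localCover`: the covering half.
For every base point `p₀ ∈ D` there is an orthonormal frame `(v, w)` such that every point
`p + s • V p` (`p` close to `p₀`, `|s| ≤ L`) lies in a square of side `(1 + η) ℓ` centred at a
lattice point `c = p₀ + ℓ i v + ℓ j w` within `K ℓ` of `p`, moved with velocity `V c`.
Built from Helper10 (`point_cover_V`), Helper33 (`exists_frame`), Helper71 (`usd`, `hκ`, ...).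
-/
import Crest.Agent.Helper10.Cover.Linear
import Crest.Agent.Helper33.Ruled.Frame
import Crest.Agent.Helper71.Ruled.Adapters

set_option autoImplicit false

namespace Crest.Agent.Helper71

open Metric Set

local notation "E2" => EuclideanSpace ℝ (Fin 2)

theorem cover_half {D U : Set E2} (hD : IsCompact D) (hU : IsOpen U) (hDU : D ⊆ U) {V : E2 → E2}
    (hV : ContDiffOn ℝ 1 V U) {L : ℝ} (hL : 0 < L)
    (htr : ∀ p ∈ D, LinearMap.trace ℝ _ (fderiv ℝ V p).toLinearMap = 0)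
    (hdet : ∀ p ∈ D, -(L ^ 2)⁻¹ < LinearMap.det (fderiv ℝ V p).toLinearMap ∧
      LinearMap.det (fderiv ℝ V p).toLinearMap ≤ 0) :
    ∃ K : ℝ, 0 < K ∧ ∀ η : ℝ, 0 < η → ∃ δ : ℝ, 0 < δ ∧ ∀ p₀ ∈ D,
      ∃ v w : E2, ‖v‖ = 1 ∧ ‖w‖ = 1 ∧ inner ℝ v w = 0 ∧
        ∀ ℓ : ℝ, 0 < ℓ → K * ℓ ≤ δ → ∀ p : E2, dist p p₀ ≤ δ → ∀ s : ℝ, |s| ≤ L →
          ∃ (i j : ℤ), dist (p₀ + (ℓ * (i : ℝ)) • v + (ℓ * (j : ℝ)) • w) p ≤ K * ℓ ∧
            ∃ x ∈ Set.Icc (0 : ℝ) 1, ∃ y ∈ Set.Icc (0 : ℝ) 1,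
              p + s • V p =
                ((p₀ + (ℓ * (i : ℝ)) • v + (ℓ * (j : ℝ)) • w) - (((1 + η) * ℓ) / 2) • (v + w))
                  + x • (((1 + η) * ℓ) • v) + y • (((1 + η) * ℓ) • w)
                  + s • V (p₀ + (ℓ * (i : ℝ)) • v + (ℓ * (j : ℝ)) • w) := by
  obtain ⟨B, hB0, hB⟩ := fderiv_bounded hD hU hDU hV
  obtain ⟨κ, hκ0, hκ⟩ := Crest.Agent.Helper71.hκ hD hU hDU hV hL (fun p hp => (hdet p hp).1)
  set K : ℝ := (1 + L * B) / κ with hK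
  have hK0 : 0 < K := by positivity
  refine ⟨K, hK0, fun η hη => ?_⟩
  set η' : ℝ := η / (2 * L * K) with hη'
  have hη'0 : 0 < η' := by positivity
  obtain ⟨δ₀, hδ₀, husd⟩ := usd hD hU hDU hV η' hη'0
  refine ⟨δ₀ / 3, by positivity, fun p₀ hp₀ => ?_⟩
  set A : E2 →L[ℝ] E2 := fderiv ℝ V p₀ with hA
  obtain ⟨v, w, hv, hw, hvw, hAv, hAw, hprod, hdec⟩ :=
    Crest.Agent.Helper33.exists_frame A (htr p₀ hp₀)
  refine ⟨v, w, hv, hw, hvw, fun ℓ hℓ hKℓ p hp s hs => ?_⟩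
  set β : ℝ := inner ℝ (A v) w with hβ
  set α : ℝ := inner ℝ (A w) v with hα
  have hA1 : A v = β • w := by
    have := hdec (A v)
    rw [hAv, zero_smul, zero_add] at this
    exact this
  have hA2 : A w = α • v := by
    have := hdec (A w)
    rw [hAw, zero_smul, add_zero] at this
    exact this
  have hαβ : α * β = - LinearMap.det A.toLinearMap := hprod
  have h0 : 0 ≤ α * β := by rw [hαβ]; linarith [(hdet p₀ hp₀).2]
  have hκA : ∀ s : ℝ, |s| ≤ L → κ ≤ 1 - s ^ 2 * (α * β) := by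
    intro s hs
    have := hκ p₀ hp₀ s hs
    rw [hαβ]; linarith
  have hlin : ∀ q : E2, dist q p ≤ (1 + L * B) / κ * ℓ →
      ‖V p - V q - A (p - q)‖ ≤ η' * ‖p - q‖ := by
    intro q hq
    apply husd p₀ hp₀ p q
    · linarith
    · calc dist q p₀ ≤ dist q p + dist p p₀ := dist_triangle _ _ _
        _ ≤ K * ℓ + δ₀ / 3 := add_le_add hq hp
        _ < δ₀ := by linarith
  obtain ⟨i, j, y₁, y₂, hdist, hy₁, hy₂, heq⟩ :=
    Crest.Agent.Helper10.point_cover_V A v w α β V hv hw hvw hdec hA1 hA2 L κ B hL hκ0 hB0 h0 hκA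
      (hB p₀ hp₀) p₀ p η' ℓ hη'0.le hℓ hlin s hs
  refine ⟨i, j, hdist, ?_⟩
  have hℓ' : 0 < (1 + η) * ℓ := by positivity
  have hbd : ℓ / 2 + L * η' * ((1 + L * B) / κ * ℓ) = (1 + η) * ℓ / 2 := by
    rw [← hK, hη']
    field_simp
  rw [hbd] at hy₁ hy₂
  rw [abs_le] at hy₁ hy₂
  refine ⟨y₁ / ((1 + η) * ℓ) + 1 / 2, ⟨?_, ?_⟩, y₂ / ((1 + η) * ℓ) + 1 / 2, ⟨?_, ?_⟩, ?_⟩
  · have : -(1 / 2) ≤ y₁ / ((1 + η) * ℓ) := by
      rw [le_div_iff₀ hℓ']; linarith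
    linarith
  · have : y₁ / ((1 + η) * ℓ) ≤ 1 / 2 := by
      rw [div_le_iff₀ hℓ']; linarith
    linarith
  · have : -(1 / 2) ≤ y₂ / ((1 + η) * ℓ) := by
      rw [le_div_iff₀ hℓ']; linarith
    linarith
  · have : y₂ / ((1 + η) * ℓ) ≤ 1 / 2 := by
      rw [div_le_iff₀ hℓ']; linarith
    linarith
  · rw [heq]
    have e1 : (y₁ / ((1 + η) * ℓ) + 1 / 2) * ((1 + η) * ℓ) = y₁ + (1 + η) * ℓ / 2 := by
      field_simp
    have e2 : (y₂ / ((1 + η) * ℓ) + 1 / 2) * ((1 + η) * ℓ) = y₂ + (1 + η) * ℓ / 2 := by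
      field_simp
    rw [smul_smul, smul_smul, e1, e2]
    module

end Crest.Agent.Helper71
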