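/-
Row 211 (S0326), BACKUP assembly: `localCover : Helper19.LocalCover D V L h` from the S0326 data.
Pieces: `cover_half` (Helper71, geometry), `local_cost` + `lattice_near_finite` (Helper21),
`hJ`, `hJD` (Helper71), `SqCover` algebra (Helper19).
-/
import Crest.Agent.Helper71.Ruled.CoverHalf
import Crest.Agent.Helper21.Ruled.Cost
import Crest.Agent.Helper19.Ruled.Global

set_option autoImplicit false

namespace Crest.Agent.Helper71

open Metric Set MeasureTheory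

local notation "E2" => EuclideanSpace ℝ (Fin 2)

/-- **Reindexing**: a `Finset`-indexed family of squares covering the ruled set over `D'`
gives a `SqCover`. -/
theorem sqCover_of_finset {V : E2 → E2} {L h : ℝ} {D' : Set E2} {cost : ℝ} {ι : Type*}
    (I : Finset ι) (c a b g : ι → E2)
    (hsq : ∀ i ∈ I, a i ≠ 0 ∧ ‖b i‖ = ‖a i‖ ∧ inner ℝ (a i) (b i) = 0)
    (hcov : ∀ p ∈ D', ∀ s : ℝ, |s| ≤ L → ∃ i ∈ I, ∃ x ∈ Set.Icc (0 : ℝ) 1,
      ∃ y ∈ Set.Icc (0 : ℝ) 1, p + s • V p = c i + x • a i + y • b i + s • g i)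
    (hcost : ∑ i ∈ I, ‖a i‖ ^ 2 / Real.sqrt (1 + (g i 0) ^ 2 + h ^ 2 * (g i 1) ^ 2) ≤ cost) :
    Crest.Agent.Helper19.SqCover V L h D' cost := by
  classical
  set e := I.equivFin with he
  refine ⟨I.card, fun k => c (e.symm k), fun k => a (e.symm k), fun k => b (e.symm k),
    fun k => g (e.symm k), fun k => hsq _ (e.symm k).2, ?_, ?_⟩
  · rintro z ⟨p, hp, hz, hz2⟩
    obtain ⟨i, hi, x, hx, y, hy, heq⟩ := hcov p hp z.1 hz
    refine Set.mem_iUnion.2 ⟨e ⟨i, hi⟩, x, hx, y, hy, ?_⟩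
    simp only [Equiv.symm_apply_apply]
    rw [hz2, heq]
  · have hsum : ∑ k : Fin I.card, ‖a (e.symm k)‖ ^ 2 /
          Real.sqrt (1 + (g (e.symm k) 0) ^ 2 + h ^ 2 * (g (e.symm k) 1) ^ 2)
        = ∑ i ∈ I, ‖a i‖ ^ 2 / Real.sqrt (1 + (g i 0) ^ 2 + h ^ 2 * (g i 1) ^ 2) := by
      rw [← Finset.sum_coe_sort I
        (fun i => ‖a i‖ ^ 2 / Real.sqrt (1 + (g i 0) ^ 2 + h ^ 2 * (g i 1) ^ 2))]
      exact Fintype.sum_equiv e.symm _ _ (fun k => rfl)
    rw [hsum]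
    exact hcost

/-- **LOCAL** (backup assembly): the local covering statement consumed by
`Helper19.sqCover_of_local`. -/
theorem localCover {D U : Set E2} (hD : IsCompact D) (hU : IsOpen U) (hDU : D ⊆ U) {V : E2 → E2}
    (hV : ContDiffOn ℝ 1 V U) {L h : ℝ} (hL : 0 < L) (hh : 0 < h)
    (htr : ∀ p ∈ D, LinearMap.trace ℝ _ (fderiv ℝ V p).toLinearMap = 0)
    (hdet : ∀ p ∈ D, -(L ^ 2)⁻¹ < LinearMap.det (fderiv ℝ V p).toLinearMap ∧
      LinearMap.det (fderiv ℝ V p).toLinearMap ≤ 0) :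
    Crest.Agent.Helper19.LocalCover D V L h := by
  obtain ⟨K, hK0, hcovK⟩ := cover_half hD hU hDU hV hL htr hdet
  intro θ hθ
  -- constants
  set η : ℝ := min 1 (θ / 3) with hη
  have hη0 : 0 < η := lt_min one_pos (by positivity)
  have hη1 : η ≤ 1 := min_le_left _ _
  have hηθ : η ≤ θ / 3 := min_le_right _ _
  obtain ⟨δc, hδc, hfr⟩ := hcovK η hη0
  obtain ⟨δJ, hδJ, hJosc⟩ := hJ hD hU hDU hV hh (θ / 8) (by positivity)
  refine ⟨min δc (δJ / 2), lt_min hδc (by positivity), fun D' hD'D hD' hdiam ε' hε' => ?_⟩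
  rcases D'.eq_empty_or_nonempty with hemp | ⟨p₀, hp₀⟩
  · subst hemp
    refine (Crest.Agent.Helper19.sqCover_empty V L h).mono (Subset.refl _) ?_
    simp only [Measure.restrict_empty, integral_zero_measure, mul_zero, measure_empty,
      ENNReal.toReal_zero, zero_add]
    exact hε'.le
  obtain ⟨v, w, hv, hw, hvw, hpt⟩ := hfr p₀ (hD'D hp₀)
  set F : E2 → ℝ := Crest.Agent.Helper19.Jfun V h with hF
  have hFc : ContinuousOn F D' := (hJD hDU hV h).mono hD'D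
  have hF0 : ∀ z, 0 ≤ F z := Crest.Agent.Helper19.Jfun_nonneg V h
  have hF1 : ∀ z, F z ≤ 1 := fun z => Jf_le_one h (V z)
  have hosc : ∀ z, (∃ q ∈ D', dist z q ≤ δJ / 2) → ∀ q ∈ D', |F z - F q| ≤ θ / 8 := by
    rintro z ⟨q₁, hq₁, hz⟩ q hq
    apply hJosc q (hD'D hq) z
    calc dist z q ≤ dist z q₁ + dist q₁ q := dist_triangle _ _ _
      _ ≤ δJ / 2 + δJ / 2 :=
        add_le_add hz ((hdiam q₁ hq₁ q hq).trans (min_le_right _ _))
      _ = δJ := by ring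
  obtain ⟨ℓ₀, hℓ₀, hcost⟩ := Crest.Agent.Helper21.local_cost v w hv hw hvw p₀ D' hD' F hFc hF0 hF1
    (θ / 8) (δJ / 2) (by positivity) (by positivity) hosc K hK0.le (ε' / 4) (by positivity)
  set ℓ : ℝ := min ℓ₀ (δc / K) with hℓ
  have hℓ0 : 0 < ℓ := lt_min hℓ₀ (by positivity)
  have hKℓ : K * ℓ ≤ δc := by
    have : ℓ ≤ δc / K := min_le_right _ _
    rw [le_div_iff₀ hK0] at this
    linarith
  have hfin := Crest.Agent.Helper21.lattice_near_finite v w hv hw hvw p₀ ℓ hℓ0 D' hD'.isBounded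
    (K * ℓ)
  set I : Finset (ℤ × ℤ) := hfin.toFinset with hI
  set cen : ℤ × ℤ → E2 := fun ij => p₀ + (ℓ * (ij.1 : ℝ)) • v + (ℓ * (ij.2 : ℝ)) • w with hcen
  have hS := hcost ℓ hℓ0 (min_le_left _ _) I (fun ij hij => (Set.Finite.mem_toFinset hfin).1 hij)
  have hℓ' : 0 < (1 + η) * ℓ := by positivity
  have hv0 : v ≠ 0 := by
    intro h0; rw [h0, norm_zero] at hv; exact zero_ne_one hv
  refine sqCover_of_finset I (fun ij => cen ij - (((1 + η) * ℓ) / 2) • (v + w))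
    (fun _ => ((1 + η) * ℓ) • v) (fun _ => ((1 + η) * ℓ) • w) (fun ij => V (cen ij)) ?_ ?_ ?_
  · intro ij _
    refine ⟨smul_ne_zero hℓ'.ne' hv0, ?_, ?_⟩
    · rw [norm_smul, norm_smul, hv, hw]
    · rw [inner_smul_left, inner_smul_right, hvw]; simp
  · intro p hp s hs
    obtain ⟨i, j, hdist, x, hx, y, hy, heq⟩ :=
      hpt ℓ hℓ0 hKℓ p ((hdiam p hp p₀ hp₀).trans (min_le_left _ _)) s hs
    exact ⟨(i, j), (Set.Finite.mem_toFinset hfin).2 ⟨p, hp, hdist⟩, x, hx, y, hy, heq⟩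
  · have hterm : ∀ ij : ℤ × ℤ, ‖((1 + η) * ℓ) • v‖ ^ 2 /
          Real.sqrt (1 + (V (cen ij) 0) ^ 2 + h ^ 2 * (V (cen ij) 1) ^ 2)
        = (1 + η) ^ 2 * (ℓ ^ 2 * F (cen ij)) := by
      intro ij
      rw [norm_smul, hv, Real.norm_eq_abs, abs_of_pos hℓ', hF]
      unfold Crest.Agent.Helper19.Jfun
      ring
    rw [Finset.sum_congr rfl (fun ij _ => hterm ij), ← Finset.mul_sum]
    have hint : 0 ≤ ∫ p in D', F p := integral_nonneg hF0
    have hvol : 0 ≤ (volume D').toReal := ENNReal.toReal_nonneg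
    have h1 : (1 + η) ^ 2 ≤ 1 + θ := by nlinarith
    have h2 : (1 + η) ^ 2 ≤ 4 := by nlinarith
    have h3 : 0 ≤ (1 + η) ^ 2 := by positivity
    calc (1 + η) ^ 2 * ∑ ij ∈ I, ℓ ^ 2 * F (cen ij)
        ≤ (1 + η) ^ 2 * ((∫ p in D', F p) + 2 * (θ / 8) * (volume D').toReal + ε' / 4) :=
          mul_le_mul_of_nonneg_left hS h3
      _ = (1 + η) ^ 2 * (∫ p in D', F p) + (1 + η) ^ 2 * (θ / 4 * (volume D').toReal)
            + (1 + η) ^ 2 * (ε' / 4) := by ring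
      _ ≤ (1 + θ) * (∫ p in D', F p) + 4 * (θ / 4 * (volume D').toReal) + 4 * (ε' / 4) := by
          have hp1 : 0 ≤ θ / 4 * (volume D').toReal := by positivity
          have hp2 : 0 ≤ ε' / 4 := by positivity
          gcongr
      _ = (1 + θ) * (∫ p in D', F p) + θ * (volume D').toReal + ε' := by ring

end Crest.Agent.Helper71
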